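import Vale.Agent.P216.D239.GlueE

/-!
# P216-T, row L: the Leray zigzag of the free loops over a part of the base

* `fibA`: the interface `E2L.Fib` of the free loops over any `A ∋ x₀`, without operator (every
  field);
* `l1A`, `l2A`: the outputs (L1), (L2) for cocycles near `A`;
* `line_over`: over `A` with the cohomology of a point, the cohomology of the free loops has rank
  at most one in each degree (lists over `A` only).
-/

set_option linter.all false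

open Set BoundedContinuousFunction

namespace Vale.Agent.P216.H456T

open Sl PS E2L Vale.Agent.P216.MV337
open Vale.Agent.P216.B64 (HU hres hpull UMap OmegaOut)
open Vale.Agent.P216.H892 (OmL fib_of)
open Vale.Agent.P216.H923E (UM UH)

/-! ### The fibre step without operator -/

section fibre

variable {M : Type} [MetricSpace M] {k : Type} [Field k] {x₀ : M} {B ρ : ℝ} {b : ℕ}
  {Fs : ℕ → Prop}

theorem umap_idP {s : ℝ} : UMap (P x₀ x₀ s) (P x₀ x₀ s) (id : (ℝ →ᵇ M) → (ℝ →ᵇ M)) :=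
  ⟨fun _ h => h, fun e => e.elim, fun ε hε => ⟨ε, hε, fun _ _ _ _ h => h⟩⟩

/-- The based loops, without operator. -/
theorem omL_id (O : OmegaOut M b x₀ B k) (hB : 0 ≤ B) (hFs : ∀ q, Fs q ↔ ∃ j, q = j * b) :
    OmL k (fun t => P x₀ x₀ t) (fun _ => id) 1 Fs (fun _ => 1) := by
  have key : ∀ {s u : ℝ}, u = s →
      UMap (P x₀ x₀ s) (P x₀ x₀ u) (id : (ℝ →ᵇ M) → (ℝ →ᵇ M)) := by
    rintro s u rfl
    exact umap_idP
  refine H893D.omL_om O hB hFs le_rfl (fun s _ => key (one_mul s)) fun j _ s hs h => ?_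
  have : ∀ (u : ℝ) (e : u = s)
      (h : UMap (P x₀ x₀ s) (P x₀ x₀ u) (id : (ℝ →ᵇ M) → (ℝ →ᵇ M))),
      hpull k h (j * b) (O.om j u) = (1 : k) • O.om j s := by
    intro u e h
    subst e
    rw [hpull_id h (P_mono le_rfl), one_smul]
    exact O.res_om j _ _ le_rfl
  exact this _ (one_mul s) h

/-- **The fibre step over `A ∋ x₀`, without operator.** -/
theorem fibA [CompactSpace M] [SimplyConnectedSpace M] {A : Set M} (hρ : 0 < ρ)
    (hU : LS.UniqSeg M ρ) (hA : x₀ ∈ A) (O : OmegaOut M b x₀ B k) (hB : 0 ≤ B)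
    (hFs : ∀ q, Fs q ↔ ∃ j, q = j * b) :
    Fib (fun w : ℝ →ᵇ M => w 0) A (fun t => FL M t) (fun t => P x₀ x₀ t) x₀
      (fun _ => id) 1 k Fs (fun _ => 1) := by
  obtain ⟨R, ℓ₀, D, ℓ, r0, c, T⟩ := H923E.exists_tr0 hρ hU x₀
  refine fib_of T.fibU_FL (H456.fle_cpt x₀) H456.fle_lip hA (H456.fle_ob x₀)
    (H456.fle_ne A) le_rfl (fun s _ => ?_) ((hFs 0).2 ⟨0, (Nat.zero_mul b).symm⟩) rfl T.hx_FL
    (fun s hs => ?_) (omL_id O hB hFs)
  · rw [one_mul]
    exact ⟨fun _ hw => hw, fun r hr => ⟨r, hr, fun _ _ _ _ h => h⟩, fun _ _ => rfl⟩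
  · simp only [one_mul, id]
    exact UH.refl (T.fibU_FL.um s hs)

end fibre

/-! ### The outputs for cocycles near `A` -/

section lerA

variable {k : Type} [Field k] {M E : Type} [PseudoMetricSpace M] [PseudoMetricSpace E]
  {π : E → M} {A : Set M} {X Ob : ℝ → Set E} {x₀ : M} {θ : ℝ → E → E} {mθ : ℝ}
  {Fs Bs : ℕ → Prop} {w : ℕ → k}
  (h : Fib π A X Ob x₀ θ mθ k Fs w) (b : BaseH k A Bs)

include h b

/-- **(L1)** near `A`. -/
theorem l1A {n : ℕ} (hn : ∀ p q, p + q = n → ¬ (Bs p ∧ Fs q)) : ∀ t > 0, ∃ T ≥ t,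
    ∀ f : List E → k, CocA π A (X T) n f → ExL (X t ∩ π ⁻¹' A) n f := by
  intro t ht
  obtain ⟨T, hT, hK⟩ := killE_of h b (p := 0) (q := n) (by omega) (fun p' q' h1 _ => hn p' q' h1)
    t ht
  exact ⟨T, hT, fun f hf => leray_zero hK hf⟩

/-- The last slot. -/
theorem coef0A {n : ℕ} (hn : ∀ p q, p + q = n → q ≠ 0 → ¬ (Bs p ∧ Fs q)) : ∀ t > 0, ∃ T ≥ t,
    ∀ f : List E → k, CocA π A (X T) n f → ∃ c : List M → k, Nrm c ∧ CocL A n c ∧
      ExL (X t ∩ π ⁻¹' A) n fun l => f l - c (l.map π) := by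
  intro t ht
  obtain ⟨T₁, hT₁, hN⟩ := h.zero t ht
  rcases Nat.eq_zero_or_pos n with rfl | hn0
  · refine ⟨T₁, hT₁, fun f hf => ?_⟩
    obtain ⟨c, hc, hcc, r, hr, h1⟩ := base_coef h.lip (h.mono hT₁) hN (h.ne t ht)
      (F0_bc (π := π) (A := A) hf)
    refine ⟨c, hc, hcc, fun _ => 0, fun _ _ => rfl, r, hr, fun l hl hs => ?_⟩
    have h2 := h1 l hl hs
    rw [aw_F0 f (by intro h; rw [h] at hl; simp at hl)] at h2
    show f l - c (l.map π) = _
    rw [dl_zero_fun, h2, sub_self]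
  · obtain ⟨T, hT, ε, hε, hR⟩ := redE (π := π) (A := A) (k := k) h.mono (n := n) (p := 0)
      (q := n) (by omega) n n 0 (by omega) (by omega)
      (fun i j h1 _ h2 => passE h b fun h3 => hn i (j + 1) (by omega) (by omega) h3) T₁
      (lt_of_lt_of_le ht hT₁)
    refine ⟨T, hT₁.trans hT, fun f hf => ?_⟩
    obtain ⟨F, hF, G, -, r, hr, h1⟩ := hR _ (F0_bc (π := π) (A := A) hf)
    obtain ⟨c, hc, hcc, r', hr', h2⟩ := base_coef h.lip (h.mono hT₁) hN (h.ne t ht) hF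
    refine ⟨fun l => ε * c l, hc.smul ε, hcc.smul ε, G, fun h0 => by omega, min r r',
      lt_min hr hr', fun l hl hs => ?_⟩
    have h3 := h1 l (by omega) (hs.mono (inter_subset_inter_left _ (h.mono hT₁))
      (min_le_left _ _))
    rw [aw_F0 f (by intro h; rw [h] at hl; simp at hl),
      h2 l hl (hs.mono subset_rfl (min_le_right _ _))] at h3
    show f l - ε * c (l.map π) = _
    rw [h3]
    ring

/-- **(L2)** near `A`. -/
theorem l2A {p q : ℕ} (hb : Bs p) (hf : Fs q)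
    (hu : ∀ p' q', p' + q' = p + q → Bs p' → Fs q' → p' = p ∧ q' = q) : ∀ t > 0, ∃ T ≥ t,
    ∀ f g : List E → k, CocA π A (X T) (p + q) f → CocA π A (X T) (p + q) g →
      ∃ a b : k, ¬ (a = 0 ∧ b = 0) ∧ ExL (X t ∩ π ⁻¹' A) (p + q) fun l => a * f l + b * g l := by
  intro t ht
  rcases q with _ | q
  · obtain ⟨T, hT, h0⟩ := coef0A h b (n := p) (fun p' q' h1 h2 h3 =>
      h2 (hu p' q' h1 h3.1 h3.2).2) t ht
    refine ⟨T, hT, fun f g hf hg => ?_⟩
    obtain ⟨c, hc, hcc, he⟩ := h0 f hf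
    obtain ⟨c', hc', hcc', he'⟩ := h0 g hg
    obtain ⟨a, a', ha, u, hu0, r, hr, hu1⟩ := b.rk p hb c c' hc hcc hc' hcc'
    have e3 : ExL (X t ∩ π ⁻¹' A) p fun l => a * c (l.map π) + a' * c' (l.map π) := by
      refine ⟨fun l => u (l.map π), fun h0 l => hu0 h0 _, r, hr, fun l hl hs => ?_⟩
      rw [Sl.dl_map]
      refine hu1 (l.map π) (by rw [List.length_map, hl]) ⟨fun y hy => ?_, fun y hy z hz => ?_⟩
      · obtain ⟨w, hw, rfl⟩ := List.mem_map.1 hy
        exact (hs.1 w hw).2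
      · obtain ⟨w, hw, rfl⟩ := List.mem_map.1 hy
        obtain ⟨w', hw', rfl⟩ := List.mem_map.1 hz
        exact (h.lip w w').trans_lt (hs.2 w hw w' hw')
    exact ⟨a, a', ha, exCongr (exAdd (exAdd (exSmul a he) (exSmul a' he')) e3)
      ⟨1, one_pos, fun l _ _ => by ring⟩⟩
  · obtain ⟨T₁, hT₁, hK⟩ := killE_of h b (p := p + 1) (q := q) (n := p + (q + 1)) (by omega)
      (fun p' q' h1 h2 h3 => by have := (hu p' q' h1 h3.1 h3.2).1; omega) t ht
    obtain ⟨t₀, ht₀, hl⟩ := h.line (q + 1) hf (by omega)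
    obtain ⟨T₂, hT₂, v, L, -⟩ := hl (max T₁ t₀) (le_max_right _ _)
    have hT₁' : 0 < T₁ := lt_of_lt_of_le ht hT₁
    obtain ⟨T, hT, ε, hε, hR⟩ := redE (π := π) (A := A) (k := k) h.mono (n := p + (q + 1))
      (p := 0) (q := p + (q + 1)) (by omega) p p (q + 1) (by omega) (by omega)
      (fun i j h1 _ h2 => passE h b fun h3 => by
        have := (hu i (j + 1) (by omega) h3.1 h3.2).1; omega) T₂
      (lt_of_lt_of_le hT₁' ((le_max_left _ _).trans hT₂))
    refine ⟨T, hT₁.trans ((le_max_left _ _).trans (hT₂.trans hT)), fun f g hf hg => ?_⟩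
    exact leray_rk hR rfl L h.lip (h.mono hT₂)
      (h.mono (hT₁.trans (le_max_left _ _))) (hK.mono' (h.mono (le_max_left _ _)))
      (b.rk p hb) hf hg

end lerA

/-! ### From cocycles over `A` to cocycles near `A` -/

section ext

variable {k : Type} [Field k] {M E : Type} [PseudoMetricSpace M] [PseudoMetricSpace E]
  {π : E → M} {A : Set M} {X X' : Set E} {n : ℕ}

/-- The points of `X` near `A` can be moved a little to points of `X'` over `A`. -/
def Dsp (π : E → M) (A : Set M) (X X' : Set E) : Prop :=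
  ∀ η > 0, ∃ δ > 0, ∀ w ∈ X, ∀ x ∈ A, dist x (π w) < δ → ∃ w' ∈ X', π w' ∈ A ∧ dist w w' ≤ η

/-- A cocycle over `A` extends, up to a coboundary, to a cocycle near `A`. -/
theorem ext_coc (hX : X ⊆ X') (hD : Dsp π A X X') {f : List E → k}
    (hf : CocL (X' ∩ π ⁻¹' A) n f) : ∃ s : E → E, CocA π A X n (fun l => f (l.map s)) ∧
      ExL (X ∩ π ⁻¹' A) n fun l => f (l.map s) - f l := by
  classical
  obtain ⟨r, hr, h⟩ := hf
  obtain ⟨δ, hδ, hd⟩ := hD (r / 4) (by positivity)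
  have key : ∀ w : E, ∃ w' : E, w ∈ X → (∃ x ∈ A, dist x (π w) < δ) →
      w' ∈ X' ∩ π ⁻¹' A ∧ dist w w' ≤ r / 4 := by
    intro w
    by_cases hw : w ∈ X ∧ ∃ x ∈ A, dist x (π w) < δ
    · obtain ⟨hw, x, hx, hxw⟩ := hw
      obtain ⟨w', h1, h2, h3⟩ := hd w hw x hx hxw
      exact ⟨w', fun _ _ => ⟨⟨h1, h2⟩, h3⟩⟩
    · exact ⟨w, fun h1 h2 => absurd ⟨h1, h2⟩ hw⟩
  choose s hs using key
  refine ⟨s, ⟨min δ (r / 4), lt_min hδ (by positivity), fun x hx ws h1 h2 h3 => ?_⟩, ?_⟩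
  · rw [Sl.dl_map]
    refine h (ws.map s) (by rw [List.length_map, h1]) ⟨fun y hy => ?_, fun y hy z hz => ?_⟩
    · obtain ⟨w, hw, rfl⟩ := List.mem_map.1 hy
      exact (hs w (h2.1 w hw) ⟨x, hx, (h3 w hw).trans_le (min_le_left _ _)⟩).1
    · obtain ⟨w, hw, rfl⟩ := List.mem_map.1 hy
      obtain ⟨w', hw', rfl⟩ := List.mem_map.1 hz
      have e1 := (hs w (h2.1 w hw) ⟨x, hx, (h3 w hw).trans_le (min_le_left _ _)⟩).2
      have e2 := (hs w' (h2.1 w' hw') ⟨x, hx, (h3 w' hw').trans_le (min_le_left _ _)⟩).2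
      have e3 := (h2.2 w hw w' hw').trans_le (min_le_right _ _)
      have e4 := dist_triangle4 (s w) w w' (s w')
      rw [dist_comm (s w) w] at e4
      linarith
  · obtain ⟨g, hg0, hg⟩ := D907.ctg_step (f := f) (n := n) (f₀ := id) (f₁ := s)
      (Y := X' ∩ π ⁻¹' A) (Zs := X ∩ π ⁻¹' A) (δ := r / 4) (r := r) h (fun w hw => by
        have e1 := hs w hw.1 ⟨π w, hw.2, by rw [dist_self]; exact hδ⟩
        refine ⟨⟨hX hw.1, hw.2⟩, e1.1, fun w' hw' hd => ?_⟩
        have e2 := hs w' hw'.1 ⟨π w', hw'.2, by rw [dist_self]; exact hδ⟩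
        have e3 := e1.2
        have e4 := e2.2
        have e5 := dist_triangle4 (s w) w w' (s w')
        rw [dist_comm (s w) w] at e5
        have e6 := dist_triangle w w' (s w')
        refine ⟨?_, ?_, ?_⟩
        · show dist w w' < r
          linarith
        · linarith
        · show dist w (s w') < r
          linarith)
    exact ⟨g, hg0, r / 4, by positivity, fun l hl hs => by
      have := hg l hl hs
      rwa [List.map_id] at this⟩

end ext

/-! ### The free loops -/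

section free

variable {M : Type} [MetricSpace M] {k : Type} [Field k] {x₀ : M} {B ρ : ℝ} {b : ℕ}

theorem clamp_sub (a c : ℝ) : |max 0 (min a 1) - max 0 (min c 1)| ≤ |a - c| := by
  refine (abs_max_sub_max_le_max 0 (min a 1) 0 (min c 1)).trans ?_
  rw [sub_self, abs_zero]
  refine max_le (abs_nonneg _) ((abs_min_sub_min_le_max a 1 c 1).trans ?_)
  rw [sub_self, abs_zero]
  exact max_le le_rfl (abs_nonneg _)

/-- The geodesic from `y` to `x` in time `ℓ`. -/
theorem exists_q (hU : LS.UniqSeg M ρ) {ℓ : ℝ} (hℓ : 0 < ℓ) (hℓρ : ℓ < ρ) {x y : M}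
    (hd : dist y x ≤ ℓ) : ∃ q : ℝ → M, Lip q ∧ q 0 = y ∧ ∀ u, ℓ ≤ u → q u = x := by
  have hm : ∀ u : ℝ, max 0 (min u 1) ∈ Icc (0 : ℝ) 1 := fun u =>
    ⟨le_max_left _ _, max_le zero_le_one (min_le_right _ _)⟩
  refine ⟨fun u => LS.seg y x (max 0 (min (u / ℓ) 1)), fun u v => ?_, ?_, fun u hu => ?_⟩
  · show dist (LS.seg y x _) (LS.seg y x _) ≤ _
    rw [LS.dist_seg_seg hU (hd.trans_lt hℓρ) (hm _) (hm _)]
    have h1 := clamp_sub (u / ℓ) (v / ℓ)
    have h2 : |u / ℓ - v / ℓ| * ℓ = |u - v| := by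
      rw [← sub_div, abs_div, abs_of_pos hℓ, div_mul_cancel₀ _ hℓ.ne']
    rw [← h2]
    exact mul_le_mul h1 hd dist_nonneg (abs_nonneg _)
  · show LS.seg y x (max 0 (min (0 / ℓ) 1)) = y
    rw [zero_div, min_eq_left zero_le_one, max_self, LS.seg_zero]
  · show LS.seg y x (max 0 (min (u / ℓ) 1)) = x
    rw [min_eq_right ((one_le_div hℓ).2 hu), max_eq_right zero_le_one, LS.seg_one]

/-- **The free loops near `A` can be moved to `A`.** -/
theorem dsp_FL [CompactSpace M] (hρ : 0 < ρ) (hU : LS.UniqSeg M ρ) (A : Set M) {t T : ℝ}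
    (ht : 0 ≤ t) (hT : t + 2 ≤ T) :
    Dsp (fun w : ℝ →ᵇ M => w 0) A (FL M t) (FL M T) := by
  intro η hη
  have hℓ : 0 < min (η / 2) (min 1 (ρ / 2)) := lt_min (by positivity) (lt_min one_pos
    (by positivity))
  refine ⟨min (η / 2) (min 1 (ρ / 2)), hℓ, fun w hw x hx hd => ?_⟩
  have h1 : min (η / 2) (min 1 (ρ / 2)) ≤ η / 2 := min_le_left _ _
  have h2 : min (η / 2) (min 1 (ρ / 2)) ≤ 1 := (min_le_right _ _).trans (min_le_left _ _)
  have h3 : min (η / 2) (min 1 (ρ / 2)) ≤ ρ / 2 := (min_le_right _ _).trans (min_le_right _ _)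
  generalize min (η / 2) (min 1 (ρ / 2)) = ℓ at *
  obtain ⟨q, hq, hq0, hq1⟩ := exists_q hU hℓ (by linarith : ℓ < ρ) (x := x) (y := w 0)
    (by rw [dist_comm]; exact hd.le)
  have hwl : Lip (w : ℝ → M) := hw.1
  have e0 : w 0 = q 0 := hq0.symm
  have e1 : w t = q 0 := (hw.2.2 t le_rfl).trans e0
  refine ⟨mo (cj ℓ t q w), FL_mono (by linarith) (mo_cj_mem hq hwl ht hℓ.le e0 e1 hq1), ?_, ?_⟩
  · show mo (cj ℓ t q w) 0 ∈ A
    rw [mo_cj_zero hq hwl ht hℓ.le e0 e1, hq1 ℓ le_rfl]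
    exact hx
  · refine (BoundedContinuousFunction.dist_le hη.le).2 fun u => ?_
    rw [(lip_cj hq hwl ht e0 e1).mo_apply]
    have hqd : ∀ v, 0 ≤ v → dist (q 0) (q v) ≤ ℓ := by
      intro v hv
      rcases le_total v ℓ with h | h
      · have := hq 0 v
        rw [zero_sub, abs_neg, abs_of_nonneg hv] at this
        linarith
      · rw [hq1 v h, ← hq1 ℓ le_rfl]
        have := hq 0 ℓ
        rwa [zero_sub, abs_neg, abs_of_pos hℓ] at this
    rcases le_total u ℓ with hu | hu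
    · rw [cj_one hu]
      have a1 := hqd (ℓ - u) (by linarith)
      have a2 : dist (w u) (q 0) ≤ ℓ := by
        rw [← e0]
        rcases le_total u 0 with h | h
        · rw [hw.2.1 u h, dist_self]
          exact hℓ.le
        · have := hw.1 u 0
          rw [sub_zero, abs_of_nonneg h] at this
          linarith
      linarith [dist_triangle (w u) (q 0) (q (ℓ - u))]
    rcases le_total u (ℓ + t) with hu' | hu'
    · rw [cj_two e0 hu hu']
      have := hw.1 u (u - ℓ)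
      rw [sub_sub_cancel, abs_of_pos hℓ] at this
      linarith
    · rw [cj_three e0 ht e1 hu', hw.2.2 u (by linarith), e0]
      have := hqd (u - ℓ - t) (by linarith)
      linarith

/-- **[P216-T, (L3)]** The free loops over a part `A ∋ x₀` of the base with the cohomology of a
point: the cohomology has rank at most one in each degree. -/
theorem line_over [CompactSpace M] [SimplyConnectedSpace M] {A : Set M} (hρ : 0 < ρ)
    (hU : LS.UniqSeg M ρ) (O : OmegaOut M b x₀ B k) (hB : 0 ≤ B) (hA : x₀ ∈ A)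
    (K : BaseH k A fun p => p = 0) (q : ℕ) : ∀ t > 0, ∃ T ≥ t,
    ∀ f g : List (ℝ →ᵇ M) → k, CocL (FL M T ∩ (fun w : ℝ →ᵇ M => w 0) ⁻¹' A) q f →
      CocL (FL M T ∩ (fun w : ℝ →ᵇ M => w 0) ⁻¹' A) q g →
      ∃ a a' : k, (a ≠ 0 ∨ a' ≠ 0) ∧
        ExL (FL M t ∩ (fun w : ℝ →ᵇ M => w 0) ⁻¹' A) q fun l => a * f l + a' * g l := by
  have F := fibA (k := k) hρ hU hA O hB (Fs := fun q => ∃ j, q = j * b) fun _ => Iff.rfl
  -- near `A`
  have near : ∀ t > 0, ∃ T ≥ t, ∀ f g : List (ℝ →ᵇ M) → k,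
      CocA (fun w : ℝ →ᵇ M => w 0) A (FL M T) q f → CocA (fun w : ℝ →ᵇ M => w 0) A (FL M T) q g →
      ∃ a a' : k, (a ≠ 0 ∨ a' ≠ 0) ∧
        ExL (FL M t ∩ (fun w : ℝ →ᵇ M => w 0) ⁻¹' A) q fun l => a * f l + a' * g l := by
    intro t ht
    by_cases hq : ∃ j, q = j * b
    · obtain ⟨T, hT, h⟩ := l2A F K (p := 0) (q := q) rfl hq (fun p' q' h1 h2 _ => by
        constructor
        · exact h2
        · omega) t ht
      rw [Nat.zero_add] at h
      refine ⟨T, hT, fun f g hf hg => ?_⟩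
      obtain ⟨a, a', ha, he⟩ := h f g hf hg
      exact ⟨a, a', by tauto, he⟩
    · obtain ⟨T, hT, h⟩ := l1A F K (n := q) (fun p' q' h1 h2 => hq (by
        have : q' = q := by have := h2.1; omega
        rw [← this]
        exact h2.2)) t ht
      refine ⟨T, hT, fun f g hf _ => ⟨1, 0, Or.inl one_ne_zero, ?_⟩⟩
      exact exCongr (h f hf) ⟨1, one_pos, fun l _ _ => by ring⟩
  intro t ht
  obtain ⟨T₁, hT₁, h⟩ := near t ht
  have hT₁' : 0 < T₁ := lt_of_lt_of_le ht hT₁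
  refine ⟨T₁ + 2, by linarith, fun f g hf hg => ?_⟩
  have hD := dsp_FL hρ hU A hT₁'.le le_rfl
  obtain ⟨s, hs, hse⟩ := ext_coc (FL_mono (by linarith)) hD hf
  obtain ⟨s', hs', hse'⟩ := ext_coc (FL_mono (by linarith)) hD hg
  obtain ⟨a, a', ha, he⟩ := h _ _ hs hs'
  have m1 : FL M t ∩ (fun w : ℝ →ᵇ M => w 0) ⁻¹' A ⊆ FL M T₁ ∩ (fun w : ℝ →ᵇ M => w 0) ⁻¹' A :=
    inter_subset_inter_left _ (FL_mono hT₁)
  refine ⟨a, a', ha, exCongr (exAdd he (exAdd (exSmul (-a) (hse.mono m1))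
    (exSmul (-a') (hse'.mono m1)))) ⟨1, one_pos, fun l _ _ => by ring⟩⟩

end free

end Vale.Agent.P216.H456T
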