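import Mathlib.Geometry.Euclidean.Angle.Unoriented.TriangleInequality
import Mathlib.Analysis.SpecialFunctions.Trigonometric.Bounds
import Vale.Agent.P216.LS.Seg
import Vale.Agent.P216.Q633.Quat

/-!
# P216-T, row C0: the round metric on the unit sphere

`Rnd E` is the unit sphere of the real inner product space `E` with the angle as metric.  Two points
at distance `< π` have unique interpolation points, and the angle lies between the chordal distance
and `π / 2` times the chordal distance.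
-/

open Set InnerProductGeometry Real
open scoped RealInnerProductSpace Quaternion

noncomputable section

namespace Vale.Agent.P216.H456T

section Norm

variable {E : Type*} [NormedAddCommGroup E]

variable (E) in
/-- The unit sphere of `E`, to be given the round metric. -/
def Rnd : Type _ := Metric.sphere (0 : E) 1

/-- The underlying vector. -/
def Rnd.v (x : Rnd E) : E := x.1

theorem norm_v (x : Rnd E) : ‖x.v‖ = 1 := by
  have h : dist x.1 0 = 1 := x.2
  rwa [dist_zero_right] at h

theorem Rnd.ext {x y : Rnd E} (h : x.v = y.v) : x = y := Subtype.ext h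

/-- A unit vector as a point of the sphere. -/
def Rnd.mk (v : E) (h : ‖v‖ = 1) : Rnd E := ⟨v, by rw [Metric.mem_sphere, dist_zero_right]; exact h⟩

@[simp] theorem v_mk (v : E) (h : ‖v‖ = 1) : (Rnd.mk v h).v = v := rfl

theorem v_ne (x : Rnd E) : x.v ≠ 0 := by
  rw [← norm_ne_zero_iff, norm_v]; exact one_ne_zero

end Norm

variable {E : Type*} [NormedAddCommGroup E] [InnerProductSpace ℝ E]

instance : MetricSpace (Rnd E) where
  dist x y := angle x.v y.v
  dist_self x := angle_self (v_ne x)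
  dist_comm x y := angle_comm _ _
  dist_triangle x y z := angle_le_angle_add_angle _ _ _
  eq_of_dist_eq_zero {x y} h :=
    Rnd.ext (eq_of_angle_eq_zero_of_norm_eq h ((norm_v x).trans (norm_v y).symm))

theorem dist_def (x y : Rnd E) : dist x y = angle x.v y.v := rfl

theorem inner_eq (x y : Rnd E) : ⟪x.v, y.v⟫ = cos (dist x y) :=
  inner_eq_cos_angle_of_norm_eq_one (norm_v x) (norm_v y)

theorem dist_le_pi (x y : Rnd E) : dist x y ≤ π := angle_le_pi _ _

theorem dist_eq_of_inner {x y : Rnd E} {a : ℝ} (h0 : 0 ≤ a) (h1 : a ≤ π)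
    (h : ⟪x.v, y.v⟫ = cos a) : dist x y = a := by
  rw [inner_eq] at h
  exact injOn_cos ⟨dist_nonneg, dist_le_pi x y⟩ ⟨h0, h1⟩ h

theorem eq_of_inner {x y : Rnd E} (h : ⟪x.v, y.v⟫ = 1) : x = y := by
  rw [← dist_eq_zero]
  exact dist_eq_of_inner le_rfl pi_pos.le (by rw [h, cos_zero])

/-- The interpolation point. -/
theorem exists_interp (x y : Rnd E) (h0 : 0 < dist x y) (h1 : dist x y < π) {t : ℝ}
    (ht : t ∈ Icc (0 : ℝ) 1) :
    ∃ w : Rnd E, ∀ z : Rnd E, ⟪z.v, w.v⟫ =
      (sin ((1 - t) * dist x y) * ⟪z.v, x.v⟫ + sin (t * dist x y) * ⟪z.v, y.v⟫) /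
        sin (dist x y) := by
  set θ := dist x y with hθ
  have hs : 0 < sin θ := sin_pos_of_pos_of_lt_pi h0 h1
  set a : ℝ := sin ((1 - t) * θ) / sin θ with ha
  set b : ℝ := sin (t * θ) / sin θ with hb
  have hxx : ⟪x.v, x.v⟫ = 1 := by rw [real_inner_self_eq_norm_sq, norm_v]; norm_num
  have hyy : ⟪y.v, y.v⟫ = 1 := by rw [real_inner_self_eq_norm_sq, norm_v]; norm_num
  have hxy : ⟪x.v, y.v⟫ = cos θ := inner_eq x y
  have hyx : ⟪y.v, x.v⟫ = cos θ := by rw [real_inner_comm]; exact hxy
  have hn : ‖a • x.v + b • y.v‖ ^ 2 = 1 := by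
    rw [← real_inner_self_eq_norm_sq]
    simp only [inner_add_left, inner_add_right, real_inner_smul_left, real_inner_smul_right, hxx,
      hyy, hxy, hyx]
    have e1 : sin ((1 - t) * θ) = sin θ * cos (t * θ) - cos θ * sin (t * θ) := by
      rw [← sin_sub]; congr 1; ring
    have e2 := sin_sq_add_cos_sq (t * θ)
    have e3 := sin_sq_add_cos_sq θ
    have e4 : a * sin θ = sin ((1 - t) * θ) := by rw [ha]; field_simp
    have e5 : b * sin θ = sin (t * θ) := by rw [hb]; field_simp
    have e6 : (a ^ 2 + b ^ 2 + 2 * a * b * cos θ) * sin θ ^ 2 = 1 * sin θ ^ 2 := by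
      have : (a ^ 2 + b ^ 2 + 2 * a * b * cos θ) * sin θ ^ 2 =
          (a * sin θ) ^ 2 + (b * sin θ) ^ 2 + 2 * (a * sin θ) * (b * sin θ) * cos θ := by ring
      rw [this, e4, e5, e1]
      have e7 : cos (t * θ) ^ 2 = 1 - sin (t * θ) ^ 2 := by linarith
      have e8 : cos θ ^ 2 = 1 - sin θ ^ 2 := by linarith
      linear_combination sin θ ^ 2 * e2 - (sin (t * θ)) ^ 2 * e3
    have e9 : a ^ 2 + b ^ 2 + 2 * a * b * cos θ = 1 :=
      mul_right_cancel₀ (pow_ne_zero 2 hs.ne') e6
    linear_combination e9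
  have hn1 : ‖a • x.v + b • y.v‖ = 1 :=
    (pow_left_inj₀ (norm_nonneg _) zero_le_one two_ne_zero).1 (by rw [hn, one_pow])
  refine ⟨Rnd.mk _ hn1, fun z => ?_⟩
  rw [v_mk, inner_add_right, real_inner_smul_right, real_inner_smul_right, ha, hb]
  ring

theorem uniqSeg : LS.UniqSeg (Rnd E) π := by
  intro x y hxy t ht
  rcases (dist_nonneg (x := x) (y := y)).eq_or_lt with h0 | h0
  · have hxy' : x = y := dist_eq_zero.1 h0.symm
    subst hxy'
    refine ⟨x, by simp, fun z hz => ?_⟩
    have := hz.2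
    simp only [dist_self, mul_zero] at this
    exact dist_eq_zero.1 this
  obtain ⟨w, hw⟩ := exists_interp x y h0 hxy ht
  set θ := dist x y with hθ
  have hs : 0 < sin θ := sin_pos_of_pos_of_lt_pi h0 hxy
  have hxx : ⟪x.v, x.v⟫ = 1 := by rw [real_inner_self_eq_norm_sq, norm_v]; norm_num
  have hyy : ⟪y.v, y.v⟫ = 1 := by rw [real_inner_self_eq_norm_sq, norm_v]; norm_num
  have hc : ⟪x.v, y.v⟫ = cos θ := inner_eq x y
  have hc' : ⟪y.v, x.v⟫ = cos θ := by rw [real_inner_comm]; exact hc
  have hθπ : θ ≤ π := hxy.le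
  have ht0 : 0 ≤ t * θ := mul_nonneg ht.1 h0.le
  have ht1 : t * θ ≤ π := by nlinarith [ht.2]
  have ht2 : 0 ≤ (1 - t) * θ := mul_nonneg (by linarith [ht.2]) h0.le
  have ht3 : (1 - t) * θ ≤ π := by nlinarith [ht.1]
  refine ⟨w, ⟨?_, ?_⟩, ?_⟩
  · refine dist_eq_of_inner ht0 ht1 ?_
    rw [hw, hxx, hc, div_eq_iff hs.ne']
    have e1 : sin ((1 - t) * θ) = sin θ * cos (t * θ) - cos θ * sin (t * θ) := by
      rw [← sin_sub]; congr 1; ring
    rw [e1]; ring
  · refine dist_eq_of_inner ht2 ht3 ?_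
    rw [real_inner_comm, hw, hyy, hc', div_eq_iff hs.ne']
    have e1 : sin (t * θ) = sin θ * cos ((1 - t) * θ) - cos θ * sin ((1 - t) * θ) := by
      rw [← sin_sub]; congr 1; ring
    rw [e1]; ring
  · rintro z ⟨hz1, hz2⟩
    have h1 : ⟪z.v, x.v⟫ = cos (t * θ) := by rw [real_inner_comm, inner_eq, hz1]
    have h2 : ⟪z.v, y.v⟫ = cos ((1 - t) * θ) := by rw [inner_eq, hz2]
    refine eq_of_inner ?_
    have e1 : sin θ = sin ((1 - t) * θ + t * θ) := by congr 1; ring
    rw [hw, h1, h2, div_eq_iff hs.ne', one_mul, e1, sin_add]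
    ring

/-! ### Comparison with the chordal distance -/

theorem norm_sub_sq (x y : Rnd E) : ‖x.v - y.v‖ ^ 2 = (2 * sin (dist x y / 2)) ^ 2 := by
  have h := norm_sub_sq_real x.v y.v
  rw [norm_v, norm_v, inner_eq] at h
  rw [h]
  have h1 : cos (dist x y) = 1 - 2 * sin (dist x y / 2) ^ 2 := by
    have := cos_sq' (dist x y / 2)
    have h2 := cos_two_mul (dist x y / 2)
    rw [show 2 * (dist x y / 2) = dist x y by ring] at h2
    linarith
  rw [h1]; ring

theorem norm_sub_eq (x y : Rnd E) : ‖x.v - y.v‖ = 2 * sin (dist x y / 2) := by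
  have h0 : 0 ≤ sin (dist x y / 2) := sin_nonneg_of_nonneg_of_le_pi
    (by have := dist_nonneg (x := x) (y := y); linarith)
    (by have := dist_le_pi x y; have := pi_pos; linarith)
  exact (pow_left_inj₀ (norm_nonneg _) (by positivity) two_ne_zero).1 (norm_sub_sq x y)

/-- The chord is at most the angle. -/
theorem chord_le (x y : Rnd E) : ‖x.v - y.v‖ ≤ dist x y := by
  rw [norm_sub_eq]
  have := sin_le (x := dist x y / 2) (by have := dist_nonneg (x := x) (y := y); linarith)
  linarith

/-- The angle is at most `π / 2` times the chord. -/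
theorem le_chord (x y : Rnd E) : dist x y ≤ π / 2 * ‖x.v - y.v‖ := by
  rw [norm_sub_eq]
  have h0 := dist_nonneg (x := x) (y := y)
  have h1 := dist_le_pi x y
  have h := mul_le_sin (x := dist x y / 2) (by linarith) (by linarith)
  have hp := pi_pos
  have h2 : dist x y / π ≤ sin (dist x y / 2) := by
    refine le_trans (le_of_eq ?_) h
    field_simp
  have h3 : dist x y = π * (dist x y / π) := by field_simp
  calc dist x y = π * (dist x y / π) := h3
    _ ≤ π * sin (dist x y / 2) := mul_le_mul_of_nonneg_left h2 hp.le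
    _ = π / 2 * (2 * sin (dist x y / 2)) := by ring

/-- The identity. -/
def toS (x : Rnd E) : Metric.sphere (0 : E) 1 := ⟨x.v, x.2⟩

/-- The identity. -/
def ofS (x : Metric.sphere (0 : E) 1) : Rnd E := ⟨x.1, x.2⟩

theorem dist_toS (x y : Rnd E) : dist (toS x) (toS y) = ‖x.v - y.v‖ := by
  rw [Subtype.dist_eq, dist_eq_norm]; rfl

theorem toS_ofS (x : Metric.sphere (0 : E) 1) : toS (ofS x) = x := rfl

/-- The sphere with the angle metric is homeomorphic to the sphere. -/
def toSph : Rnd E ≃ₜ Metric.sphere (0 : E) 1 where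
  toFun := toS
  invFun := ofS
  left_inv _ := rfl
  right_inv _ := rfl
  continuous_toFun := by
    refine (LipschitzWith.of_dist_le_mul (K := 1) fun x y => ?_).continuous
    rw [dist_toS, NNReal.coe_one, one_mul]
    exact chord_le x y
  continuous_invFun := by
    refine (LipschitzWith.of_dist_le_mul (K := ⟨π / 2, by positivity⟩) fun x y => ?_).continuous
    have h := le_chord (ofS x) (ofS y)
    rw [← dist_toS, toS_ofS, toS_ofS] at h
    exact h

theorem dist_toSph_le (x y : Rnd E) : dist (toSph x) (toSph y) ≤ dist x y :=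
  (dist_toS x y).trans_le (chord_le x y)

theorem le_dist_toSph (x y : Rnd E) : dist x y ≤ π / 2 * dist (toSph x) (toSph y) :=
  (le_chord x y).trans_eq (by rw [← dist_toS]; rfl)

instance [FiniteDimensional ℝ E] : CompactSpace (Rnd E) := by
  have : ProperSpace E := FiniteDimensional.proper ℝ E
  have : CompactSpace (Metric.sphere (0 : E) 1) := isCompact_iff_compactSpace.1 (isCompact_sphere _ _)
  exact (toSph (E := E)).symm.compactSpace

/-- The round three-sphere. -/
abbrev RS3 : Type := Rnd ℍ[ℝ]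

/-- **Row C0.** -/
theorem exists_round : ∃ (A : Type) (_ : MetricSpace A) (_ : CompactSpace A) (ρ : ℝ)
    (e : A ≃ₜ Q633.S3), 0 < ρ ∧ LS.UniqSeg A ρ ∧
      ∀ x y, dist (e x) (e y) ≤ dist x y ∧ dist x y ≤ (π / 2) * dist (e x) (e y) :=
  ⟨RS3, inferInstance, inferInstance, π, toSph, pi_pos, uniqSeg,
    fun x y => ⟨dist_toSph_le x y, le_dist_toSph x y⟩⟩

end Vale.Agent.P216.H456T
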